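import Vale.Agent.Lib.P232.Corner

set_option linter.unusedVariables false

open MeasureTheory Filter Topology Set
open scoped Real

namespace Vale.Agent.Lib.P232

section Corner2


/-- The slab bound at the corner of the parameter square. -/
theorem corner_slab2 {a b V Per : ℝ} (h0 : 0 ≤ a) (ha : a ≤ 1 / 10000) (hb1 : b ≤ 1)
    (hb : 1 - 1 / 10000 ≤ b) (hV1 : 31 / 100 ≤ V) (hV2 : V ≤ 69 / 100) (h : PairBound I2 a b V Per) :
    2 ≤ Per := by
  have hab : a ≤ b := by linarith
  have hpi := Real.pi_pos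
  obtain ⟨hr1, hr2⟩ := sqrtPi_bounds
  set B : ℝ → ℝ := fun s => 1 - f1 a b s - f2 a b s with hB
  set A : ℝ → ℝ := fun s => √(1 - B s ^ 2) with hA
  have hf1 := f1_bounds (b := b) h0
  have hf2 := f2_bounds hab hb1
  have hB78 : ∀ s, 7 / 8 ≤ B s := by
    intro s
    have := (hf1 s).2
    have := (hf2 s).2
    simp only [hB]
    linarith
  have hB1 : ∀ s, B s ≤ 1 := by
    intro s
    have := (hf1 s).1
    have := (hf2 s).1
    simp only [hB]
    linarith
  have hBsq : ∀ s, 0 ≤ 1 - B s ^ 2 := by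
    intro s
    have := hB78 s
    have := hB1 s
    nlinarith
  have hBc : Continuous B := (continuous_const.sub (f1_cont h0)).sub (f2_cont hab hb1)
  have hpair : CalibPair A B :=
    { contA := Real.continuous_sqrt.comp (continuous_const.sub (hBc.pow 2))
      contB := hBc
      nonnegA := fun s => Real.sqrt_nonneg _
      nonnegB := fun s => by linarith [hB78 s]
      le_one := fun s => by
        simp only [hA]
        rw [Real.sq_sqrt (hBsq s)]
        linarith }
  set p := √a with hp
  set q := √(1 - b) with hq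
  have hb0 : 0 ≤ 1 - b := by linarith
  have hp0 : 0 ≤ p := Real.sqrt_nonneg _
  have hq0 : 0 ≤ q := Real.sqrt_nonneg _
  have hp2 : p ^ 2 = a := Real.sq_sqrt h0
  have hq2 : q ^ 2 = 1 - b := Real.sq_sqrt hb0
  have hp1 : p ≤ 1 / 100 := by
    rw [hp, Real.sqrt_le_left (by norm_num)]
    norm_num
    linarith
  have hq1 : q ≤ 1 / 100 := by
    rw [hq, Real.sqrt_le_left (by norm_num)]
    norm_num
    linarith
  set r := √π with hr
  have hdom : ∀ s ∈ Icc a b, (2 * r * (q / 4 - p / 4)) * s + 2 * r * (p / 4) ≤ A s * I2 s := by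
    intro s hs
    have hs0 : 0 ≤ s := h0.trans hs.1
    have hs1 : s ≤ 1 := hs.2.trans hb1
    have hs2 : 0 ≤ 1 - s := by linarith
    have hu : 0 ≤ s * (1 - s) := mul_nonneg hs0 hs2
    have h1 := corner_dom h0 hab hb1 hs
    have h2 := I2_ge hs0 hs1
    have hA0 : 0 ≤ A s := Real.sqrt_nonneg _
    have e : (2 * r * (q / 4 - p / 4)) * s + 2 * r * (p / 4)
        = 2 * r * (p / 4 * (1 - s) + q / 4 * s) := by ring
    rw [e]
    have h3 : √(π * (s * (1 - s))) = r * √(s * (1 - s)) := by
      rw [hr, Real.sqrt_mul hpi.le]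
    rw [h3] at h2
    have hX : p / 4 * (1 - s) + q / 4 * s ≤ A s * √(s * (1 - s)) := by
      have e2 : A s * √(s * (1 - s)) = √((1 - B s ^ 2) * (s * (1 - s))) := by
        simp only [hA]
        rw [Real.sqrt_mul (hBsq s)]
      rw [e2]
      apply Real.le_sqrt_of_sq_le
      refine h1.trans ?_
      apply mul_le_mul_of_nonneg_right _ hu
      have h4 := hB78 s
      have h5 := hB1 s
      have : f1 a b s + f2 a b s = 1 - B s := by
        simp only [hB]
        ring
      rw [this]
      nlinarith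
    have hr0 : 0 < r := by linarith
    calc 2 * r * (p / 4 * (1 - s) + q / 4 * s) ≤ 2 * r * (A s * √(s * (1 - s))) :=
          mul_le_mul_of_nonneg_left hX (by positivity)
      _ = A s * (2 * (r * √(s * (1 - s)))) := by ring
      _ ≤ A s * I2 s := mul_le_mul_of_nonneg_left h2 hA0
  have hmain := h A B hpair _ _ hdom
  have hI : ∫ s in a..b, B s = (b - a) - (∫ s in a..b, f1 a b s) - ∫ s in a..b, f2 a b s := by
    simp only [hB]
    have c1 : Continuous fun s => 1 - f1 a b s := continuous_const.sub (f1_cont h0)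
    have i1 : ∫ s in a..b, (1 - f1 a b s - f2 a b s)
        = (∫ s in a..b, (1 - f1 a b s)) - ∫ s in a..b, f2 a b s :=
      intervalIntegral.integral_sub (c1.intervalIntegrable _ _)
        ((f2_cont hab hb1).intervalIntegrable _ _)
    have i2 : ∫ s in a..b, (1 - f1 a b s) = (∫ s in a..b, (1 : ℝ)) - ∫ s in a..b, f1 a b s :=
      intervalIntegral.integral_sub (continuous_const.intervalIntegrable _ _)
        ((f1_cont h0).intervalIntegrable _ _)
    rw [i1, i2]
    simp
  have h1 := int_f1 h0 hab hb1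
  have h2 := int_f2 h0 hab hb1
  rw [← hp] at h1
  rw [← hq] at h2
  rw [hI] at hmain
  have h3 : (2 * r * (q / 4 - p / 4)) * V + 2 * r * (p / 4)
      = 2 * r * (p / 4 * (1 - V) + q / 4 * V) := by ring
  rw [h3] at hmain
  have h4 : (p + q) * (31 / 400) ≤ p / 4 * (1 - V) + q / 4 * V := by nlinarith
  have h5 : 2 * r * ((p + q) * (31 / 400)) ≤ 2 * r * (p / 4 * (1 - V) + q / 4 * V) :=
    mul_le_mul_of_nonneg_left h4 (by linarith)
  have h6 : 2 * (p ^ 2 + q ^ 2) ≤ 0.02 * (p + q) := by nlinarith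
  have h7 : b - a = 1 - p ^ 2 - q ^ 2 := by rw [hp2, hq2]; ring
  rw [h7] at hmain
  have h8 : 0 ≤ p + q := by linarith
  have h9 : 1.7724 * (p + q) ≤ r * (p + q) := mul_le_mul_of_nonneg_right hr1.le h8
  norm_num at h6 h9 ⊢
  nlinarith [h1, h2, h5, h6, h9, hmain]


end Corner2

end Vale.Agent.Lib.P232
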