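import Vale.Agent.Lib.P232.RigDefs
import Vale.Agent.Lib.P232.RigCyl
import Vale.Agent.Lib.P232.RigArc
import Vale.Agent.Lib.P232.RigLor
import Vale.Agent.Lib.P232.RigSeq
import Vale.Agent.Lib.P232.RigReal
import Vale.Agent.Lib.P232.RigProfB
import Vale.Agent.Lib.P232.RigProfD
import Vale.Agent.Lib.P232.RigStein
import Vale.Agent.Lib.P232.RigPlane
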